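import Vale.Agent.P249.H73.Main

open MeasureTheory Filter Asymptotics
open scoped ENNReal

theorem Vale.Agent.Results.P249.TwoExponents.result (p : ℝ≥0∞) [Fact (1 ≤ p)] (hp1 : 1 < p)
    (hptop : p ≠ ∞) :
    -- (1) `d_p(n, D) = o(n)` for every `D > 1`
    (∀ D : ℝ, 1 < D →
      (fun n : ℕ => (Vale.Agent.P249.H73.embDim p p n D : ℝ)) =o[atTop] (fun n : ℕ => (n : ℝ))) ∧
    -- (2) for `q = p`, and for all `1 ≤ q ≤ p` if `p ≤ 2`: the least dimension `d_{p,q}(n, D)` such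
    -- that the `n`-point subsets of `L_p` embed into `ℓ_q^d` with distortion `D`
    (∀ (q : ℝ≥0∞) [Fact (1 ≤ q)], q = p ∨ (q ≤ p ∧ p ≤ 2) →
      -- `d_{p,q}(n, 1 + ε) ≤ exp (C (log n) ^ θ / ε)` for every `θ > max (1 / p) (1 / 2)`
      (∀ θ : ℝ, max (1 / p.toReal) (1 / 2) < θ →
        ∃ C : ℝ, 0 < C ∧ ∀ n : ℕ, 2 ≤ n → ∀ ε : ℝ, 0 < ε → ε ≤ 1 →
          Vale.Agent.P249.H73.Embeds p q n (1 + ε) (Vale.Agent.P249.H73.embDim p q n (1 + ε)) ∧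
            (Vale.Agent.P249.H73.embDim p q n (1 + ε) : ℝ) ≤
              Real.exp (C * Real.log n ^ θ / ε)) ∧
      -- `d_{p,q}(n, D) = o(n ^ κ)` for all `D > 1` and `κ > 0`
      (∀ D : ℝ, 1 < D → ∀ κ : ℝ, 0 < κ →
        (fun n : ℕ => (Vale.Agent.P249.H73.embDim p q n D : ℝ)) =o[atTop]
          (fun n : ℕ => (n : ℝ) ^ κ))) ∧
    -- (3) `d_p(n, D) ≥ c (log n / log log n) ^ (p / 2)` for `p > 2` and all `D ≥ 1`
    (2 < p → ∀ D : ℝ, 1 ≤ D → ∃ c : ℝ, 0 < c ∧ ∀ n : ℕ, 3 ≤ n → ∀ d : ℕ,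
      Vale.Agent.P249.H73.Embeds p p n D d →
        c * (Real.log n / Real.log (Real.log n)) ^ (p.toReal / 2) ≤ d) := by
  refine ⟨fun D hD => ?_, fun q _ hq => ⟨fun θ hθ => ?_, fun D hD κ hκ => ?_⟩,
    fun _ => Vale.Agent.P249.lower_admissible p hptop⟩
  · have h := Vale.Agent.P249.H560.subpoly_fixed p hp1 hptop D hD 1 one_pos
    simp only [Real.rpow_one] at h
    exact h
  · rcases hq with h | ⟨h1, h2⟩
    · subst h
      exact Vale.Agent.P249.H560.uniform q hp1 hptop θ hθ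
    · exact Vale.Agent.P249.H73.two_exponents p q hp1 h2 h1 θ
        (lt_of_le_of_lt (le_max_left _ _) hθ)
  · rcases hq with h | ⟨h1, h2⟩
    · subst h
      exact Vale.Agent.P249.H560.subpoly_fixed q hp1 hptop D hD κ hκ
    · exact Vale.Agent.P249.H73.subpoly_two p q hp1 h2 h1 D hD κ hκ
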