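import Vale.Agent.P249.H560.Main

open MeasureTheory Filter Asymptotics
open scoped ENNReal

theorem Vale.Agent.Results.P249.UniformExponent.result (p : ℝ≥0∞) [Fact (1 ≤ p)] (hp1 : 1 < p)
    (hptop : p ≠ ∞) :
    -- (1) `d_p(n, 1 + ε) ≤ exp (C (log n) ^ θ / ε)` for every `θ > θ_p = max (1 / p) (1 / 2)`, with
    -- `C` independent of `n ≥ 2` and of `0 < ε ≤ 1`; here `θ_p < 1`
    max (1 / p.toReal) (1 / 2) < 1 ∧
    (∀ θ : ℝ, max (1 / p.toReal) (1 / 2) < θ →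
      ∃ C : ℝ, 0 < C ∧ ∀ n : ℕ, 2 ≤ n → ∀ ε : ℝ, 0 < ε → ε ≤ 1 →
        Vale.Agent.P249.Admissible p n (1 + ε) (Vale.Agent.P249.dimLp p n (1 + ε)) ∧
          (Vale.Agent.P249.dimLp p n (1 + ε) : ℝ) ≤ Real.exp (C * Real.log n ^ θ / ε)) ∧
    -- (2) hence `d_p(n, D_n) = o(n ^ κ)` for every `κ > 0`, for every fixed `D_n = D > 1` and even if
    -- `D_n → 1`, as long as `D_n ≥ 1 + (log n) ^ (-a)` for some `a < 1 - θ_p`
    (∀ a : ℝ, a < 1 - max (1 / p.toReal) (1 / 2) → ∀ D : ℕ → ℝ,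
      (∀ᶠ n : ℕ in atTop, 1 + Real.log n ^ (-a) ≤ D n) → ∀ κ : ℝ, 0 < κ →
        (fun n : ℕ => (Vale.Agent.P249.dimLp p n (D n) : ℝ)) =o[atTop]
          (fun n : ℕ => (n : ℝ) ^ κ)) ∧
    (∀ D : ℝ, 1 < D → ∀ κ : ℝ, 0 < κ →
      (fun n : ℕ => (Vale.Agent.P249.dimLp p n D : ℝ)) =o[atTop] (fun n : ℕ => (n : ℝ) ^ κ)) ∧
    -- (3) in particular `d_p(n, D) = o(n)` for all `D > 1`
    (∀ D : ℝ, 1 < D →
      (fun n : ℕ => (Vale.Agent.P249.dimLp p n D : ℝ)) =o[atTop] (fun n : ℕ => (n : ℝ))) ∧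
    -- (4) `d_p(n, D) ≥ c (log n / log log n) ^ (p / 2)` for `p > 2` and all `D ≥ 1`
    (2 < p → ∀ D : ℝ, 1 ≤ D → ∃ c : ℝ, 0 < c ∧ ∀ n : ℕ, 3 ≤ n → ∀ d : ℕ,
      Vale.Agent.P249.Admissible p n D d →
        c * (Real.log n / Real.log (Real.log n)) ^ (p.toReal / 2) ≤ d) := by
  refine ⟨Vale.Agent.P249.H560.exponent_lt_one' (Vale.Agent.P249.H560.one_lt_toReal hp1 hptop),
    Vale.Agent.P249.H560.uniform p hp1 hptop, Vale.Agent.P249.H560.subpoly_seq p hp1 hptop,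
    Vale.Agent.P249.H560.subpoly_fixed p hp1 hptop, fun D hD => ?_,
    fun _ => Vale.Agent.P249.lower_admissible p hptop⟩
  simpa using Vale.Agent.P249.H560.subpoly_fixed p hp1 hptop D hD 1 one_pos
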